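import Vale.Agent.P257.K.SC
import Vale.Agent.P257.C.Deg
import Vale.Agent.P257.C.Cells

/-!
# P257, block K: finite sums in `SC D`, additivity of the tensor product, spheres
-/

open CategoryTheory MonoidalCategory Limits

namespace Vale.Agent.P257.K

open Vale.Agent.P251.H Vale.Agent.P251.H.StabInput
open Vale.Agent.P251.G (LC)
open Vale.Agent.P251.G.LC (RR sum sumInl sumInr)

universe v u v' u'

section general

variable {C : Type u} [Category.{v} C] {ι : Type} {X : ι → C} {W : C} {i : ∀ k, X k ⟶ W}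

/-- `W` is the coproduct of the `X k` -/
structure IsSum (i : ∀ k, X k ⟶ W) : Prop where
  desc : ∀ {Z : C} (f : ∀ k, X k ⟶ Z), ∃ g : W ⟶ Z, ∀ k, i k ≫ g = f k
  ext : ∀ {Z : C} {g g' : W ⟶ Z}, (∀ k, i k ≫ g = i k ≫ g') → g = g'

namespace IsSum

theorem of_isColimit (h : IsColimit (Cofan.mk W i)) : IsSum i :=
  ⟨fun f => ⟨Cofan.IsColimit.desc h f, Cofan.IsColimit.fac h f⟩,
    fun e => Cofan.IsColimit.hom_ext h _ _ e⟩

/-- the colimit cofan -/
noncomputable def isColimit (h : IsSum i) : IsColimit (Cofan.mk W i) :=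
  Cofan.IsColimit.mk _ (fun s => (h.desc s.inj).choose) (fun s => (h.desc s.inj).choose_spec)
    fun s _ e => h.ext fun k => (e k).trans ((h.desc s.inj).choose_spec k).symm

theorem sigma (X : ι → C) [HasCoproduct X] : IsSum (Sigma.ι X) :=
  of_isColimit (coproductIsCoproduct X)

theorem map {E : Type u'} [Category.{v'} E] (h : IsSum i) (F : C ⥤ E)
    [PreservesColimitsOfShape (Discrete ι) F] : IsSum fun k => F.map (i k) :=
  of_isColimit (isColimitCofanMkObjOfIsColimit F X i h.isColimit)

theorem of_isPushout [HasZeroMorphisms C] {O A B : C} {a : O ⟶ A} {b : O ⟶ B} {j : A ⟶ W}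
    {l : B ⟶ W} (h : IsPushout a b j l) (hO : IsZero O) :
    IsSum (X := fun k : Bool => cond k A B) fun k => k.rec l j :=
  ⟨fun f => ⟨h.desc (f true) (f false) (hO.eq_of_src _ _), fun k =>
    k.rec (h.inr_desc _ _ _) (h.inl_desc _ _ _)⟩, fun e => h.hom_ext (e true) (e false)⟩

theorem total [Preadditive C] [Fintype ι] (h : IsSum i) (p : ∀ k, W ⟶ X k)
    (h1 : ∀ k, i k ≫ p k = 𝟙 _) (h2 : ∀ k l, k ≠ l → i k ≫ p l = 0) : ∑ k, p k ≫ i k = 𝟙 W :=
  h.ext fun k => by
    rw [Preadditive.comp_sum, Finset.sum_eq_single k (fun l _ n => by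
      rw [reassoc_of% (h2 k l n.symm), zero_comp]) (by simp), reassoc_of% h1, Category.comp_id]

theorem exists_proj [HasZeroMorphisms C] (h : IsSum i) : ∃ p : ∀ k, W ⟶ X k,
    (∀ k, i k ≫ p k = 𝟙 _) ∧ ∀ k l, k ≠ l → i k ≫ p l = 0 := by
  classical
  choose p hp using fun l => h.desc fun k => if e : k = l then eqToHom (congrArg X e) else 0
  exact ⟨p, fun k => by simp [hp], fun k l n => by simp [hp, n]⟩

end IsSum

end general

variable {M : Type u} [Category.{v} M] [MonoidalCategory M] [SymmetricCategory M]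
  [MonoidalClosed M] [HasZeroMorphisms M] [HasColimitsOfSize.{0, 0} M] [StabInput M]
  {D : Stab M} {A B : M}

namespace IsSum

variable {ι : Type} {X : ι → M} {W Z : M} {i : ∀ k, X k ⟶ W}

omit [SymmetricCategory M] [HasZeroMorphisms M] [HasColimitsOfSize.{0, 0} M] [StabInput M] in
theorem whiskerLeft (h : IsSum i) (Y : M) : IsSum fun k => Y ◁ i k :=
  have : PreservesColimitsOfSize.{0, 0} (tensorLeft Y) :=
    (ihom.adjunction Y).leftAdjoint_preservesColimits
  h.map (tensorLeft Y)

omit [HasZeroMorphisms M] [HasColimitsOfSize.{0, 0} M] [StabInput M] in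
theorem whiskerRight (h : IsSum i) (Y : M) : IsSum fun k => i k ▷ Y := h.map (tensorRight Y)

theorem pwMap (h : IsSum i) (D : Stab M) (m : ℕ) : IsSum fun k => D.pwMap m (i k) := by
  induction m with
  | zero => exact h
  | succ m ih => exact ih.whiskerLeft D.U

theorem mHtpy (h : IsSum i) {f g : W ⟶ Z} (e : ∀ k, MHtpy (i k ≫ f) (i k ≫ g)) : MHtpy f g := by
  choose H h0 h1 using e
  obtain ⟨K, hK⟩ := (h.whiskerRight (I M)).desc H
  exact ⟨K, h.ext fun k => by rw [← inc_naturality_assoc, hK]; exact h0 k,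
    h.ext fun k => by rw [← inc_naturality_assoc, hK]; exact h1 k⟩

end IsSum

theorem Stab.mHtpy_tk_mono {f g : A ⟶ B} {k m : ℕ} (l : k ≤ m)
    (h : MHtpy (D.tk k A ≫ f) (D.tk k A ≫ g)) : MHtpy (D.tk m A ≫ f) (D.tk m A ≫ g) := by
  induction m, l using Nat.le_induction with
  | base => exact h
  | succ m _ ih => simpa only [D.tk_succ, Category.assoc] using ih.comp_left (D.t _)

open SC

/-- `st D` preserves finite sums. -/
theorem IsSum.st {ι : Type} [Finite ι] {X : ι → M} {W : M} {i : ∀ k, X k ⟶ W} (h : IsSum i)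
    (D : Stab M) : IsSum fun k => (st D).map (i k) := by
  refine ⟨fun {Z} f => ?_, fun {Z x y} e => ?_⟩
  · choose k hk using fun l => exists_frac_le (B := Z.obj) (f l)
    obtain ⟨m, hm⟩ := (Set.finite_range k).bddAbove
    choose g hg using fun l => hk l m (hm ⟨l, rfl⟩)
    obtain ⟨w, hw⟩ := (h.pwMap D m).desc g
    refine ⟨inv ((K.st D).map (D.tk m W)) ≫ (K.st D).map w, fun l => ?_⟩
    rw [← cancel_epi ((K.st D).map (D.tk m (X l))), hg, ← Functor.map_comp_assoc, ← D.tk_nat,
      Functor.map_comp_assoc, IsIso.hom_inv_id_assoc, ← Functor.map_comp, hw]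
  · obtain ⟨k, f, hf⟩ := exists_frac (B := Z.obj) (x - y)
    have l : ∀ l, ∃ m, MHtpy (D.tk m _ ≫ D.pwMap k (i l) ≫ f) (D.tk m _ ≫ 0) := fun l =>
      (st_eq_iff _ _).1 (by
        rw [Functor.map_comp, ← hf, ← Functor.map_comp_assoc, D.tk_nat, Functor.map_comp_assoc,
          Preadditive.comp_sub, e, sub_self, comp_zero, st_zero])
    choose m hm using l
    obtain ⟨n, hn⟩ := (Set.finite_range m).bddAbove
    rw [← sub_eq_zero, ← cancel_epi ((K.st D).map (D.tk k W)), hf, comp_zero, st_eq_zero_iff]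
    refine ⟨n, ((h.pwMap D k).pwMap D n).mHtpy fun l => ?_⟩
    rw [D.tk_nat_assoc, comp_zero]
    simpa using Stab.mHtpy_tk_mono (hn ⟨l, rfl⟩) (hm l)

namespace SC

/-- A functor which preserves zero maps and the sums `A ⨿ A` is additive. -/
theorem additive_of {E : Type u'} [Category.{v'} E] [Preadditive E] (F : SC D ⥤ E)
    (hz : ∀ A B : M, F.map ((st D).map (0 : A ⟶ B)) = 0)
    (h : ∀ A : M, IsSum fun k => F.map ((st D).map (Sigma.ι (fun _ : Bool => A) k))) :
    F.Additive := by
  have key : ∀ {A B : M} (x y : (st D).obj A ⟶ (st D).obj B),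
      F.map (x + y) = F.map x + F.map y := fun {A B} x y => by
    obtain ⟨d, hd⟩ := ((IsSum.sigma fun _ : Bool => A).st D).desc fun k => cond k x y
    obtain ⟨p, h1, h2⟩ := (IsSum.sigma fun _ : Bool => A).exists_proj
    have t := (h A).total (fun k => F.map ((st D).map (p k)))
      (fun k => by rw [← F.map_comp, ← Functor.map_comp, h1, (st D).map_id, F.map_id])
      fun k l n => by rw [← F.map_comp, ← Functor.map_comp, h2 k l n, hz]
    rw [← show _ = x from hd true, ← show _ = y from hd false, ← Preadditive.add_comp, F.map_comp,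
      ← Category.id_comp (F.map d), ← t, Fintype.sum_bool, Preadditive.add_comp,
      Preadditive.comp_add, Category.assoc, Category.assoc,
      ← F.map_comp_assoc _ ((st D).map (p true)), ← F.map_comp_assoc _ ((st D).map (p false)),
      Preadditive.add_comp, Preadditive.add_comp]
    simp only [← (st D).map_comp, h1, h2 true false (by simp), h2 false true (by simp), st_zero,
      (st D).map_id, add_zero, zero_add, Category.id_comp, F.map_comp, F.map_id]
  exact ⟨fun {X Y x y} => key (A := X.obj) (B := Y.obj) x y⟩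

instance (Z : SC D) : (left Z).Additive :=
  additive_of _ (fun _ _ => by rw [left_st, whiskerLeft_zero', st_zero]) fun A => by
    simpa only [left_st] using ((IsSum.sigma fun _ : Bool => A).whiskerLeft Z.obj).st D

instance (Z : SC D) : (right Z).Additive :=
  additive_of _ (fun _ _ => by rw [right_st, zero_whiskerRight', st_zero]) fun A => by
    simpa only [right_st] using ((IsSum.sigma fun _ : Bool => A).whiskerRight Z.obj).st D

instance : MonoidalPreadditive (SC D) where
  whiskerLeft_zero {X _ _} := (left X).map_zero _ _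
  zero_whiskerRight {X _ _} := (right X).map_zero _ _
  whiskerLeft_add {X _ _} _ _ := (left X).map_add
  add_whiskerRight {X _ _} _ _ := (right X).map_add

theorem isZero_st (h : IsZero A) : IsZero ((st D).obj A) := (st D).map_isZero h

theorem isZero_st_of_mContr (h : MContr A) : IsZero ((st D).obj A) :=
  (IsZero.iff_id_eq_zero _).2 (((st D).map_id A).symm.trans (st_null h))

instance : HasZeroObject (SC D) := ⟨_, isZero_st isZero_empty⟩

theorem isIso_st_of_hequiv (f : A ⟶ B) (g : B ⟶ A) (h1 : MHtpy (f ≫ g) (𝟙 A))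
    (h2 : MHtpy (g ≫ f) (𝟙 B)) : IsIso ((st D).map f) :=
  ⟨(st D).map g, by rw [← Functor.map_comp, st_htpy h1, (st D).map_id],
    by rw [← Functor.map_comp, st_htpy h2, (st D).map_id]⟩

instance : IsIso ((st D).map D.lam) := by
  rw [show D.lam = (ρ_ _).inv ≫ D.t (𝟙_ M) by simp [Stab.t, unitors_equal], Functor.map_comp]
  infer_instance

variable (D) in
/-- the circle -/
noncomputable abbrev SS : SC D := (st D).obj (S M)

variable (D) in
/-- `L` is inverse to the circle -/
noncomputable def lamIso : (st D).obj D.L ⊗ SS D ≅ 𝟙_ (SC D) := asIso ((st D).map D.lam)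

theorem lamIso_hom : (lamIso D).hom = (st D).map D.lam := rfl

end SC

section inv

variable {C : Type u'} [Category.{v'} C] [MonoidalCategory C] [SymmetricCategory C] {L S : C}

/-- tensoring with an invertible object is an equivalence -/
def invEquiv (e : L ⊗ S ≅ 𝟙_ C) : C ≌ C :=
  .mk (tensorRight S) (tensorRight L)
    ((rightUnitorNatIso C).symm ≪≫ (tensoringRight C).mapIso (β_ S L ≪≫ e).symm ≪≫
      tensorRightTensor S L)
    ((tensorRightTensor L S).symm ≪≫ (tensoringRight C).mapIso e ≪≫ rightUnitorNatIso C)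

theorem bijective_whiskerRight (e : L ⊗ S ≅ 𝟙_ C) (X Y : C) :
    Function.Bijective fun f : X ⟶ Y => f ▷ S :=
  (invEquiv e).fullyFaithfulFunctor.map_bijective X Y

theorem bijective_whiskerLeft (e : L ⊗ S ≅ 𝟙_ C) (X Y : C) :
    Function.Bijective fun f : X ⟶ Y => S ◁ f :=
  ((invEquiv e).fullyFaithfulFunctor.ofIso
    (BraidedCategory.tensorLeftIsoTensorRight S).symm).map_bijective X Y

end inv

namespace SC

theorem eq_zero_of_whiskerRight_S {X Y : SC D} (x : X ⟶ Y) (h : x ▷ SS D = 0) : x = 0 :=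
  (bijective_whiskerRight (lamIso D) X Y).1 (h.trans MonoidalPreadditive.zero_whiskerRight.symm)

variable (D) in
theorem sphFun : C.SphFun (J M ⋙ st D) where
  htpy h := st_htpy (MHtpy.map h)
  zero X Y := (congrArg (st D).map (J_map_zero X Y)).trans (st_zero _ _)
  ext {X Y _} _ h1 h2 := ((IsSum.of_isPushout (StabInput.pushout _ _ _ _ (injective_empty _)
    (P251.G.LC.isPushout_sum X Y P251.G.LC.isZero_empty 0 0)) isZero_empty).st D).ext fun k =>
      k.rec (h2.trans comp_zero.symm) (h1.trans comp_zero.symm)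

theorem hasSign_S : C.HasSign (SS D) (-1) := (sphFun D).hasSign_RR

theorem hasSign_L : C.HasSign ((st D).obj D.L) (-1) := hasSign_S.inv (lamIso D)

variable (D) in
/-- the spheres of all integer dimensions -/
noncomputable def sph : C.Cells (SC D) ℤ := .ofInv (lamIso D)

variable (D) in
/-- the sphere of dimension one -/
noncomputable def sphOne : (sph D).obj 1 ≅ SS D := C.Cells.ofInvOne _

theorem hasSign_sph (k : ℤ) : C.HasSign ((sph D).obj k) k.negOnePow :=
  (sph D).hasSign_int (hasSign_S.of_iso (sphOne D).symm) k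

theorem st_madd {Z : M} (f g : B ⊗ S M ⟶ Z) :
    (st D).map (madd f g) = (st D).map f + (st D).map g := by
  have k : (st D).map ((J M).map LP.pinch) =
      (st D).map ((J M).map (sumInl RR RR)) + (st D).map ((J M).map (sumInr RR RR)) :=
    (sphFun D).map_cat _ _
  rw [madd, Functor.map_comp, st_whiskerLeft, k, MonoidalPreadditive.whiskerLeft_add,
    Preadditive.add_comp, ← st_whiskerLeft, ← st_whiskerLeft, ← Functor.map_comp,
    ← Functor.map_comp, tinl_desc, tinr_desc]

theorem st_neg : (st D).map ((J M).map P251.G.LC.neg) = -𝟙 (SS D) := (sphFun D).map_neg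

theorem st_mneg {Z : M} (f : B ⊗ S M ⟶ Z) : (st D).map (mneg f) = -(st D).map f := by
  rw [mneg, Functor.map_comp, st_whiskerLeft, st_neg, ← neg_one_zsmul, C.whiskerLeft_zsmul,
    MonoidalCategory.whiskerLeft_id, Preadditive.zsmul_comp, neg_one_zsmul]
  exact congrArg _ (Category.id_comp _)

end SC

end Vale.Agent.P257.K
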