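import Vale.Agent.P257.K.PC
import Vale.Agent.P251.H.Exact
import Mathlib.CategoryTheory.Monoidal.Preadditive
import Mathlib.CategoryTheory.Preadditive.AdditiveFunctor

/-!
# P257, block K: the stable category of a stabilization datum

`Stab M`: an object `L` with a map `lam : L ⊗ S ⟶ 𝟙` and the rotation homotopy.  `SC D`: the
category with the objects of `M` and the stable homotopy classes `colim [U^k ⊗ A, B]` as
morphisms.  It is preadditive and symmetric monoidal; `st D : M ⥤ SC D` is strict monoidal.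
-/

open CategoryTheory MonoidalCategory Limits

namespace Vale.Agent.P257.K

open Vale.Agent.P251.H Vale.Agent.P251.H.StabInput

universe v u v' u'

variable {M : Type u} [Category.{v} M] [MonoidalCategory M] [SymmetricCategory M]
  [MonoidalClosed M] [HasZeroMorphisms M] [HasColimitsOfSize.{0, 0} M] [StabInput M]

variable (M) in
/-- a formal desuspension -/
structure Stab where
  /-- the formal desuspension -/
  L : M
  /-- the structure map -/
  lam : L ⊗ S M ⟶ 𝟙_ M
  rot : MHtpy (lam ▷ (L ⊗ S M) ≫ (λ_ _).hom) ((L ⊗ S M) ◁ lam ≫ (ρ_ _).hom)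

namespace Stab

variable (D : Stab M)

/-- the stabilization datum on the homotopy category -/
@[reducible] def obj : StabObj (HM M) where
  L := ⟨D.L⟩
  S := ⟨S M⟩
  lam := (HM.proj M).map D.lam
  comm := HM.sound D.rot

noncomputable instance : CoGrp D.obj.S := HM.coGrp

/-- `U = L ⊗ S` -/
abbrev U : M := D.L ⊗ S M

/-- the transition map -/
def t (A : M) : D.U ⊗ A ⟶ A := D.lam ▷ A ≫ (λ_ A).hom

@[reassoc]
theorem t_nat {A B : M} (f : A ⟶ B) : D.U ◁ f ≫ D.t B = D.t A ≫ f := by
  rw [t, t, whisker_exchange_assoc, leftUnitor_naturality, Category.assoc]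

/-- `U ⊗ ⋯ ⊗ U ⊗ A` -/
@[reducible] def pw : ℕ → M → M
  | 0, A => A
  | k + 1, A => D.U ⊗ pw k A

/-- functoriality of `pw` -/
def pwMap : (k : ℕ) → {A B : M} → (A ⟶ B) → (D.pw k A ⟶ D.pw k B)
  | 0, _, _, f => f
  | k + 1, _, _, f => D.U ◁ pwMap k f

/-- the iterated transition map -/
def tk : (k : ℕ) → (A : M) → (D.pw k A ⟶ A)
  | 0, A => 𝟙 A
  | k + 1, A => D.t (D.pw k A) ≫ tk k A

@[simp] theorem pwMap_zero {A B : M} (f : A ⟶ B) : D.pwMap 0 f = f := rfl

@[simp] theorem pwMap_succ (k : ℕ) {A B : M} (f : A ⟶ B) :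
    D.pwMap (k + 1) f = D.U ◁ D.pwMap k f := rfl

@[simp] theorem tk_zero (A : M) : D.tk 0 A = 𝟙 A := rfl

theorem tk_succ (k : ℕ) (A : M) : D.tk (k + 1) A = D.t (D.pw k A) ≫ D.tk k A := rfl

@[simp] theorem pwMap_id (k : ℕ) (A : M) : D.pwMap k (𝟙 A) = 𝟙 _ := by
  induction k with
  | zero => rfl
  | succ k ih => rw [pwMap_succ, ih, MonoidalCategory.whiskerLeft_id]

@[reassoc, simp]
theorem pwMap_comp (k : ℕ) {A B C : M} (f : A ⟶ B) (g : B ⟶ C) :
    D.pwMap k (f ≫ g) = D.pwMap k f ≫ D.pwMap k g := by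
  induction k with
  | zero => rfl
  | succ k ih => rw [pwMap_succ, ih, MonoidalCategory.whiskerLeft_comp, pwMap_succ, pwMap_succ]

@[reassoc]
theorem tk_nat (k : ℕ) {A B : M} (f : A ⟶ B) : D.pwMap k f ≫ D.tk k B = D.tk k A ≫ f := by
  induction k with
  | zero => simp
  | succ k ih => rw [tk_succ, tk_succ, pwMap_succ, t_nat_assoc, ih, Category.assoc]

theorem pw_eq (k : ℕ) (A : M) :
    D.obj.coPt.pw k ((HM.proj M).obj A) = (HM.proj M).obj (D.pw k A) := by
  induction k with
  | zero => rfl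
  | succ k ih => exact congrArg D.obj.coPt.F.obj ih

theorem proj_tk (k : ℕ) (A : M) :
    eqToHom (D.pw_eq k A) ≫ (HM.proj M).map (D.tk k A) = D.obj.coPt.tk k ((HM.proj M).obj A) := by
  induction k with
  | zero => exact (Category.id_comp _).trans (D.obj.coPt.tk_zero _).symm
  | succ k ih =>
    rw [D.obj.coPt.tk_succ, ← ih, ← CoPt.nat_assoc, eqToHom_map]
    rfl

/-- twisting by an endomorphism of `U` -/
@[reducible] def twist (e : D.U ⟶ D.U) : Stab M where
  L := D.L
  lam := e ≫ D.lam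
  rot := by
    have h1 := MHtpy.comp_left (e ▷ D.U) D.rot
    have h2 := MHtpy.comp_left (D.U ◁ e) D.rot
    have h3 := MHtpy.comp_right D.rot e
    rw [← whisker_exchange_assoc, rightUnitor_naturality] at h1
    rw [whisker_exchange_assoc, leftUnitor_naturality] at h2
    rw [Category.assoc, Category.assoc] at h3
    rw [comp_whiskerRight, MonoidalCategory.whiskerLeft_comp, Category.assoc, Category.assoc]
    exact h1.trans (h3.symm.trans h2)

variable (M) in
/-- the datum of the `StabInput` -/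
@[reducible] def std : Stab M := ⟨StabInput.L, StabInput.lam, StabInput.rot⟩

end Stab

/-- the stable category -/
structure SC (D : Stab M) where
  /-- the underlying object -/
  obj : M

variable {D : Stab M}

noncomputable instance : Category.{v} (SC D) where
  Hom A B := D.obj.coPt.Pi ((HM.proj M).obj A.obj) ((HM.proj M).obj B.obj)
  id _ := D.obj.coPt.cl 0 (𝟙 _)
  comp x y := pcomp _ x y
  id_comp _ := (zero_pcomp _ _ _).trans (CoPt.comap_id _ _ _ _)
  comp_id _ := (pcomp_zero _ _ _).trans (CoPt.map_id _ _ _ _)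
  assoc := pcomp_assoc _

variable (D) in
/-- the stabilization functor -/
@[implicit_reducible] noncomputable def st : M ⥤ SC D where
  obj A := ⟨A⟩
  map f := D.obj.coPt.cl 0 ((HM.proj M).map f)
  map_comp f g := (pcomp_zero _ (D.obj.coPt.cl 0 ((HM.proj M).map f)) ((HM.proj M).map g)).symm

noncomputable instance : Preadditive (SC D) where
  homGroup _ _ := StabObj.instAddCommGroupPiCoPt D.obj _ _
  add_comp _ _ _ := add_pcomp D.obj
  comp_add _ _ _ := pcomp_add D.obj

namespace SC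

variable {A B C : M}

theorem st_obj (A : M) : (st D).obj A = ⟨A⟩ := rfl

@[simp] theorem st_obj_obj (A : M) : ((st D).obj A).obj = A := rfl

theorem comp_st {X : SC D} (x : X ⟶ (st D).obj B) (f : B ⟶ C) :
    x ≫ (st D).map f = D.obj.coPt.map _ ((HM.proj M).map f) x := pcomp_zero _ _ _

theorem st_comp {X : SC D} (f : A ⟶ B) (y : (st D).obj B ⟶ X) :
    (st D).map f ≫ y = D.obj.coPt.comap ((HM.proj M).map f) _ y := zero_pcomp _ _ _

theorem st_htpy {f g : A ⟶ B} (h : MHtpy f g) : (st D).map f = (st D).map g :=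
  congrArg (D.obj.coPt.cl 0) (HM.sound h)

@[simp] theorem st_zero (A B : M) : (st D).map (0 : A ⟶ B) = 0 := rfl

theorem st_null {f : A ⟶ B} (h : MHtpy f 0) : (st D).map f = 0 := st_htpy h

instance : (st D).PreservesZeroMorphisms := ⟨st_zero⟩

instance (A : M) : IsIso ((st D).map (D.t A)) :=
  (isIso_iff_yoneda_map_bijective _).2 fun X => by
    rw [funext fun x : X ⟶ _ => comp_st x (D.t A)]
    exact D.obj.coPt.bijective_map_t _ ((HM.proj M).obj A)

instance (k : ℕ) (A : M) : IsIso ((st D).map (D.tk k A)) := by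
  induction k with
  | zero => exact ((st D).mapIso (Iso.refl A)).isIso_hom
  | succ k ih =>
    rw [D.tk_succ, Functor.map_comp]
    infer_instance

/-- Every morphism is a fraction. -/
theorem exists_frac (x : (st D).obj A ⟶ (st D).obj B) : ∃ (k : ℕ) (f : D.pw k A ⟶ B),
    (st D).map (D.tk k A) ≫ x = (st D).map f := by
  obtain ⟨k, f, rfl⟩ := CoPt.cl_surj x
  obtain ⟨g, hg⟩ := HM.proj_map_surjective (eqToHom (D.pw_eq k A).symm ≫ f)
  refine ⟨k, g, (st_comp _ _).trans ?_⟩
  rw [(eqToIso (D.pw_eq k A)).eq_inv_comp.2 (D.proj_tk k A), CoPt.comap_comp]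
  exact (congrArg _ (comap_tk_cl _ k f)).trans (congrArg (D.obj.coPt.cl 0) hg.symm)

theorem exists_frac_le (x : (st D).obj A ⟶ (st D).obj B) : ∃ k : ℕ, ∀ m, k ≤ m →
    ∃ f : D.pw m A ⟶ B, (st D).map (D.tk m A) ≫ x = (st D).map f := by
  obtain ⟨k, f, h⟩ := exists_frac x
  refine ⟨k, fun m l => ?_⟩
  induction m, l using Nat.le_induction with
  | base => exact ⟨f, h⟩
  | succ m _ ih =>
    obtain ⟨g, l⟩ := ih
    exact ⟨D.t _ ≫ g, by rw [D.tk_succ, Functor.map_comp, Category.assoc, l, Functor.map_comp]⟩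

/-- Stably equal maps become homotopic. -/
theorem st_eq_iff (f g : A ⟶ B) :
    (st D).map f = (st D).map g ↔ ∃ k, MHtpy (D.tk k A ≫ f) (D.tk k A ≫ g) := by
  refine ⟨fun h => ?_, fun ⟨k, h⟩ => ?_⟩
  · obtain ⟨k, _, l⟩ := (CoPt.cl_eq_iff' (P := D.obj.coPt) (k := 0) _ _).1 h
    refine ⟨k, (HM.proj_map_eq_iff _ _).1 ?_⟩
    replace l : D.obj.coPt.tk k ((HM.proj M).obj A) ≫ (HM.proj M).map f =
      D.obj.coPt.tk k ((HM.proj M).obj A) ≫ (HM.proj M).map g := l
    rwa [← D.proj_tk, Category.assoc, Category.assoc, cancel_epi] at l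
  · rw [← cancel_epi ((st D).map (D.tk k A)), ← Functor.map_comp, st_htpy h, Functor.map_comp]

theorem st_eq_zero_iff (f : A ⟶ B) : (st D).map f = 0 ↔ ∃ k, MHtpy (D.tk k A ≫ f) 0 := by
  rw [← st_zero, st_eq_iff]
  simp only [comp_zero]

theorem nat_of_st {E : Type u'} [Category.{v'} E] (F G : SC D ⥤ E) (a : ∀ X, F.obj X ⟶ G.obj X)
    (h : ∀ {A B : M} (f : A ⟶ B), F.map ((st D).map f) ≫ a _ = a _ ≫ G.map ((st D).map f))
    {X Y : SC D} (x : X ⟶ Y) : F.map x ≫ a Y = a X ≫ G.map x := by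
  have k : ∀ {A B : M} (x : (st D).obj A ⟶ (st D).obj B), F.map x ≫ a _ = a _ ≫ G.map x :=
    fun {A B} x => by
      obtain ⟨k, f, e⟩ := exists_frac x
      rw [← cancel_epi (F.map ((st D).map (D.tk k A))), ← F.map_comp_assoc, e, h,
        reassoc_of% (h (D.tk k A)), ← G.map_comp, e]
  exact k (A := X.obj) (B := Y.obj) x

/-- the functor `- ⊗ Z` -/
@[implicit_reducible] noncomputable def right (Z : SC D) : SC D ⥤ SC D where
  obj X := ⟨X.obj ⊗ Z.obj⟩
  map x := (D.obj.right ((HM.proj M).obj Z.obj)).pi _ _ x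
  map_id _ := congrArg (D.obj.coPt.cl 0) ((Category.id_comp _).trans (id_whiskerRight _ _))
  map_comp := pi_pcomp _

/-- the functor `Z ⊗ -` -/
@[implicit_reducible] noncomputable def left (Z : SC D) : SC D ⥤ SC D where
  obj X := ⟨Z.obj ⊗ X.obj⟩
  map x := (D.obj.left ((HM.proj M).obj Z.obj)).pi _ _ x
  map_id _ := congrArg (D.obj.coPt.cl 0)
    ((Category.id_comp _).trans (MonoidalCategory.whiskerLeft_id _ _))
  map_comp := pi_pcomp _

theorem right_st (Z : SC D) (f : A ⟶ B) :
    (right Z).map ((st D).map f) = (st D).map (f ▷ Z.obj) :=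
  congrArg (D.obj.coPt.cl 0) ((Category.id_comp _).trans (HM.proj_whiskerRight f Z.obj).symm)

theorem left_st (Z : SC D) (f : A ⟶ B) : (left Z).map ((st D).map f) = (st D).map (Z.obj ◁ f) :=
  congrArg (D.obj.coPt.cl 0) ((Category.id_comp _).trans (HM.proj_whiskerLeft Z.obj f).symm)

noncomputable instance : MonoidalCategoryStruct (SC D) where
  tensorObj X Y := ⟨X.obj ⊗ Y.obj⟩
  whiskerLeft Z _ _ x := (left Z).map x
  whiskerRight x Z := (right Z).map x
  tensorUnit := ⟨𝟙_ M⟩
  associator X Y Z := (st D).mapIso (α_ X.obj Y.obj Z.obj)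
  leftUnitor X := (st D).mapIso (λ_ X.obj)
  rightUnitor X := (st D).mapIso (ρ_ X.obj)

theorem st_tensor (A B : M) : (st D).obj (A ⊗ B) = (st D).obj A ⊗ (st D).obj B := rfl

theorem st_unit : (st D).obj (𝟙_ M) = 𝟙_ (SC D) := rfl

theorem st_whiskerLeft (Z : M) (f : A ⟶ B) :
    (st D).map (Z ◁ f) = (st D).obj Z ◁ (st D).map f := (left_st ⟨Z⟩ f).symm

theorem st_whiskerRight (f : A ⟶ B) (Z : M) :
    (st D).map (f ▷ Z) = (st D).map f ▷ (st D).obj Z := (right_st ⟨Z⟩ f).symm

theorem exchange {W X Y Z : SC D} (x : W ⟶ X) (y : Y ⟶ Z) : W ◁ y ≫ x ▷ Z = x ▷ Y ≫ X ◁ y :=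
  (nat_of_st (right Y) (right Z) (fun X => X ◁ y) (fun {A B} f => by
    rw [right_st, right_st]
    refine (nat_of_st (left ⟨A⟩) (left ⟨B⟩) (fun X => (st D).map (f ▷ X.obj)) (fun g => ?_) y).symm
    rw [left_st, left_st, ← Functor.map_comp, ← Functor.map_comp]
    exact congrArg _ (whisker_exchange f g)) x).symm

theorem assoc_nat₁ {X X' : SC D} (x : X ⟶ X') (Y Z : SC D) :
    (x ▷ Y) ▷ Z ≫ (α_ X' Y Z).hom = (α_ X Y Z).hom ≫ x ▷ (Y ⊗ Z) :=
  nat_of_st (right Y ⋙ right Z) (right (Y ⊗ Z)) (fun X => (α_ X Y Z).hom) (fun f => by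
    rw [Functor.comp_map, right_st, right_st, right_st]
    exact ((st D).map_comp _ _).symm.trans ((congrArg _
      (associator_naturality_left f _ _)).trans ((st D).map_comp _ _))) x

theorem assoc_nat₂ (X : SC D) {Y Y' : SC D} (y : Y ⟶ Y') (Z : SC D) :
    (X ◁ y) ▷ Z ≫ (α_ X Y' Z).hom = (α_ X Y Z).hom ≫ X ◁ (y ▷ Z) :=
  nat_of_st (left X ⋙ right Z) (right Z ⋙ left X) (fun Y => (α_ X Y Z).hom) (fun f => by
    rw [Functor.comp_map, Functor.comp_map, left_st, right_st, right_st, left_st]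
    exact ((st D).map_comp _ _).symm.trans ((congrArg _
      (associator_naturality_middle _ f _)).trans ((st D).map_comp _ _))) y

theorem assoc_nat₃ (X Y : SC D) {Z Z' : SC D} (z : Z ⟶ Z') :
    (X ⊗ Y) ◁ z ≫ (α_ X Y Z').hom = (α_ X Y Z).hom ≫ X ◁ (Y ◁ z) :=
  nat_of_st (left (X ⊗ Y)) (left Y ⋙ left X) (fun Z => (α_ X Y Z).hom) (fun f => by
    rw [Functor.comp_map, left_st, left_st, left_st]
    exact ((st D).map_comp _ _).symm.trans ((congrArg _
      (associator_naturality_right _ _ f)).trans ((st D).map_comp _ _))) z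

theorem wl_comp (X : SC D) {Y Z W : SC D} (y : Y ⟶ Z) (z : Z ⟶ W) :
    X ◁ (y ≫ z) = X ◁ y ≫ X ◁ z := (left X).map_comp y z

theorem wr_comp {Y Z W : SC D} (y : Y ⟶ Z) (z : Z ⟶ W) (X : SC D) :
    (y ≫ z) ▷ X = y ▷ X ≫ z ▷ X := (right X).map_comp y z

noncomputable instance : MonoidalCategory (SC D) where
  tensorHom_def _ _ := rfl
  id_tensorHom_id X Y := (congrArg₂ (· ≫ ·) ((right Y).map_id X) ((left X).map_id Y)).trans
    (Category.id_comp _)
  tensorHom_comp_tensorHom {X₁ Y₁ Z₁ X₂ Y₂ Z₂} f₁ f₂ g₁ g₂ := by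
    change (f₁ ▷ X₂ ≫ Y₁ ◁ f₂) ≫ g₁ ▷ Y₂ ≫ Z₁ ◁ g₂ = (f₁ ≫ g₁) ▷ X₂ ≫ Z₁ ◁ (f₂ ≫ g₂)
    rw [wl_comp, wr_comp, Category.assoc, Category.assoc, reassoc_of% (exchange g₁ f₂)]
  whiskerLeft_id X Y := (left X).map_id Y
  id_whiskerRight X Y := (right Y).map_id X
  associator_naturality {X₁ X₂ X₃ Y₁ Y₂ Y₃} f₁ f₂ f₃ := by
    change ((f₁ ▷ X₂ ≫ Y₁ ◁ f₂) ▷ X₃ ≫ (Y₁ ⊗ Y₂) ◁ f₃) ≫ _ =
      _ ≫ f₁ ▷ (X₂ ⊗ X₃) ≫ Y₁ ◁ (f₂ ▷ X₃ ≫ Y₂ ◁ f₃)
    rw [wl_comp, wr_comp, Category.assoc, Category.assoc, assoc_nat₃, reassoc_of% assoc_nat₂,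
      reassoc_of% assoc_nat₁]
  leftUnitor_naturality := nat_of_st (left (𝟙_ _)) (𝟭 _) (fun X => (λ_ X).hom) fun f => by
    rw [left_st]
    exact ((st D).map_comp _ _).symm.trans ((congrArg _
      (leftUnitor_naturality f)).trans ((st D).map_comp _ _))
  rightUnitor_naturality := nat_of_st (right (𝟙_ _)) (𝟭 _) (fun X => (ρ_ X).hom) fun f => by
    rw [right_st]
    exact ((st D).map_comp _ _).symm.trans ((congrArg _
      (rightUnitor_naturality f)).trans ((st D).map_comp _ _))
  pentagon W X Y Z := by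
    have := congrArg (st D).map (pentagon W.obj X.obj Y.obj Z.obj)
    simp only [Functor.map_comp, st_whiskerLeft, st_whiskerRight] at this
    exact this
  triangle X Y := by
    have := congrArg (st D).map (triangle X.obj Y.obj)
    simp only [Functor.map_comp, st_whiskerLeft, st_whiskerRight] at this
    exact this

noncomputable instance : SymmetricCategory (SC D) where
  braiding X Y := (st D).mapIso (β_ X.obj Y.obj)
  braiding_naturality_right X _ _ := nat_of_st (left X) (right X)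
    (fun Y => (st D).map (β_ X.obj Y.obj).hom) fun f => by
      rw [left_st, right_st, ← Functor.map_comp, ← Functor.map_comp]
      exact congrArg _ (BraidedCategory.braiding_naturality_right _ f)
  braiding_naturality_left x Z := nat_of_st (right Z) (left Z)
    (fun Y => (st D).map (β_ Y.obj Z.obj).hom) (fun f => by
      rw [left_st, right_st, ← Functor.map_comp, ← Functor.map_comp]
      exact congrArg _ (BraidedCategory.braiding_naturality_left f _)) x
  hexagon_forward X Y Z := by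
    have := congrArg (st D).map (BraidedCategory.hexagon_forward X.obj Y.obj Z.obj)
    simp only [Functor.map_comp, st_whiskerLeft, st_whiskerRight] at this
    exact this
  hexagon_reverse X Y Z := by
    have := congrArg (st D).map (BraidedCategory.hexagon_reverse X.obj Y.obj Z.obj)
    simp only [Functor.map_comp, st_whiskerLeft, st_whiskerRight] at this
    exact this
  symmetry X Y := ((st D).map_comp _ _).symm.trans
    ((congrArg _ (SymmetricCategory.symmetry _ _)).trans ((st D).map_id _))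

theorem st_associator_hom (A B C : M) :
    (st D).map (α_ A B C).hom = (α_ ((st D).obj A) ((st D).obj B) ((st D).obj C)).hom := rfl

theorem st_associator_inv (A B C : M) :
    (st D).map (α_ A B C).inv = (α_ ((st D).obj A) ((st D).obj B) ((st D).obj C)).inv := rfl

theorem st_leftUnitor_hom (A : M) : (st D).map (λ_ A).hom = (λ_ ((st D).obj A)).hom := rfl

theorem st_leftUnitor_inv (A : M) : (st D).map (λ_ A).inv = (λ_ ((st D).obj A)).inv := rfl

theorem st_rightUnitor_hom (A : M) : (st D).map (ρ_ A).hom = (ρ_ ((st D).obj A)).hom := rfl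

theorem st_rightUnitor_inv (A : M) : (st D).map (ρ_ A).inv = (ρ_ ((st D).obj A)).inv := rfl

theorem st_braiding_hom (A B : M) :
    (st D).map (β_ A B).hom = (β_ ((st D).obj A) ((st D).obj B)).hom := rfl

theorem st_braiding_inv (A B : M) :
    (st D).map (β_ A B).inv = (β_ ((st D).obj A) ((st D).obj B)).inv := rfl

theorem st_tensorHom {A' B' : M} (f : A ⟶ B) (g : A' ⟶ B') :
    (st D).map (f ⊗ₘ g) = (st D).map f ⊗ₘ (st D).map g := by
  rw [tensorHom_def, tensorHom_def, Functor.map_comp, st_whiskerLeft, st_whiskerRight]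

variable (D) in
/-- the strict monoidal structure of `st D` -/
noncomputable def stCore : (st D).CoreMonoidal where
  εIso := Iso.refl _
  μIso _ _ := Iso.refl _
  μIso_hom_natural_left f Z := (Category.comp_id _).trans
    ((st_whiskerRight f Z).symm.trans (Category.id_comp _).symm)
  μIso_hom_natural_right Z f := (Category.comp_id _).trans
    ((st_whiskerLeft Z f).symm.trans (Category.id_comp _).symm)
  associativity X Y Z := by simp [st_associator_hom]
  left_unitality X := by simp [st_leftUnitor_hom]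
  right_unitality X := by simp [st_rightUnitor_hom]

noncomputable instance : (st D).Monoidal := (stCore D).toMonoidal

@[simp] theorem st_μ (A B : M) : Functor.LaxMonoidal.μ (st D) A B = 𝟙 _ := rfl

@[simp] theorem st_δ (A B : M) : Functor.OplaxMonoidal.δ (st D) A B = 𝟙 _ := rfl

@[simp] theorem st_ε : Functor.LaxMonoidal.ε (st D) = 𝟙 _ := rfl

@[simp] theorem st_η : Functor.OplaxMonoidal.η (st D) = 𝟙 _ := rfl

noncomputable instance : (st D).Braided where
  braided _ _ := (Category.id_comp _).trans (Category.comp_id _).symm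

end SC

end Vale.Agent.P257.K
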