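import Vale.Agent.P257.K.Kl
import Vale.Agent.P257.K.SC
import Vale.Agent.P257.T.Adj
import Vale.Agent.P257.Z.Tr
import Vale.Agent.P257.L.Tri

/-!
# P257, block K: calculus in the co-Kleisli category

`Kl.of`, exactness of `ks S`, and points of comonoids.
-/

open CategoryTheory MonoidalCategory Limits Functor.LaxMonoidal Functor.OplaxMonoidal

namespace Vale.Agent.P257.K

open Vale.Agent.P257.C Vale.Agent.P257.Z
open Vale.Agent.P251.M (IsInv)

set_option linter.unusedSectionVars false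

universe v u v' u' v'' u''

variable {H : Type u} [Category.{v} H] [MonoidalCategory H]
  {E : Type u'} [Category.{v'} E] [MonoidalCategory E]
  {E' : Type u''} [Category.{v''} E'] [MonoidalCategory E']

theorem isInv_map [SymmetricCategory E] (F : H ⥤ E) [F.Monoidal] (L : H) [IsInv L] :
    IsInv (F.obj L) :=
  IsInv.of_inverse (Functor.Monoidal.μIso F _ _ ≪≫
    F.mapIso ((tensorLeft L).objObjPreimageIso (𝟙_ H)) ≪≫ (Functor.Monoidal.εIso F).symm)

namespace Kl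

variable {S : H} [ComonObj S] {A B D A' B' X : H} {P Y : Kl S}

/-- the morphism of `Kl S` given by `f : S ⊗ A ⟶ B` -/
def of (f : S ⊗ A ⟶ B) : (ks S).obj A ⟶ (ks S).obj B := kl f

@[simp] theorem un_of (f : S ⊗ A ⟶ B) : un (of f) = f := rfl

@[simp] theorem of_un (f : (ks S).obj A ⟶ (ks S).obj B) : of (un f) = f := rfl

theorem of_injective {f g : S ⊗ A ⟶ B} (h : of f = of g) : f = g := h

theorem exists_of (f : (ks S).obj A ⟶ (ks S).obj B) : ∃ g, of g = f := ⟨un f, rfl⟩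

@[reassoc]
theorem of_comp_ks (f : S ⊗ A ⟶ B) (g : B ⟶ D) : of f ≫ (ks S).map g = of (f ≫ g) :=
  hom_ext (un_comp_ks _ _)

@[reassoc]
theorem ks_comp_of (g : A ⟶ B) (f : S ⊗ B ⟶ D) : (ks S).map g ≫ of f = of (S ◁ g ≫ f) :=
  hom_ext (un_ks_comp _ _)

theorem of_comp_of (f : S ⊗ A ⟶ B) (g : S ⊗ B ⟶ D) :
    of f ≫ of g = of (ComonObj.comul ▷ A ≫ (α_ S S A).hom ≫ S ◁ f ≫ g) :=
  hom_ext (Category.assoc _ _ _)

theorem ks_map_eq (g : A ⟶ B) : (ks S).map g = of (ComonObj.counit ▷ A ≫ (λ_ A).hom ≫ g) :=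
  hom_ext (Category.assoc _ _ _)

theorem Vtx.lift_of {R : H ⥤ E} [R.Monoidal] (x : Vtx S R) (f : S ⊗ A ⟶ B) :
    x.lift.map (of f) = (λ_ _).inv ≫ x.v ▷ R.obj A ≫ μ R S A ≫ R.map f := by
  rw [x.lift_map, Vtx.pv, Category.assoc, Category.assoc]
  rfl

theorem bij_ks {φ : A ⟶ B} : L.Bij P ((ks S).map φ) ↔ L.Bij (S ⊗ P.obj) φ := by
  have e : (fun g : P ⟶ (ks S).obj A => g ≫ (ks S).map φ) = fun g => kl (un g ≫ φ) :=
    funext fun g => hom_ext (un_comp_ks g φ)
  rw [L.Bij, e]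
  rfl

section add

variable [Preadditive H] [MonoidalPreadditive H]

@[simp] theorem of_zero : of (0 : S ⊗ A ⟶ B) = 0 := rfl

@[simp] theorem of_add (f g : S ⊗ A ⟶ B) : of (f + g) = of f + of g := rfl

@[simp] theorem of_neg (f : S ⊗ A ⟶ B) : of (-f) = -of f := rfl

@[simp] theorem of_sub (f g : S ⊗ A ⟶ B) : of (f - g) = of f - of g := rfl

@[simp] theorem of_zsmul (n : ℤ) (f : S ⊗ A ⟶ B) : of (n • f) = n • of f := rfl

@[simp] theorem of_nsmul (n : ℕ) (f : S ⊗ A ⟶ B) : of (n • f) = n • of f := rfl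

theorem of_eq_zero {f : S ⊗ A ⟶ B} : of f = 0 ↔ f = 0 := Iff.rfl

/-- morphisms of `Kl S` -/
def ofEquiv (A B : H) : (S ⊗ A ⟶ B) ≃+ ((ks S).obj A ⟶ (ks S).obj B) := AddEquiv.refl _

theorem zr_iff : Zr P Y ↔ Zr (S ⊗ P.obj) Y.obj := Iff.rfl

theorem isZero_ks (h : IsZero A) : IsZero ((ks S).obj A) := Functor.map_isZero _ h

theorem isZero_iff : IsZero P ↔ IsZero (S ⊗ P.obj) := by
  rw [IsZero.iff_id_eq_zero, IsZero.iff_id_eq_zero]
  refine ⟨fun h => ?_, fun h => hom_ext ?_⟩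
  · exact ((fr S).map_id P).symm.trans ((congrArg _ h).trans ((fr S).map_zero _ _))
  · rw [← Category.id_comp (un _), h, zero_comp, un_zero]

end add

variable [SymmetricCategory H] [IsCommComonObj S]

theorem of_whiskerRight (f : S ⊗ A ⟶ B) (X : H) :
    of f ▷ (ks S).obj X = of ((α_ S A X).inv ≫ f ▷ X) := rfl

theorem whiskerLeft_of (X : H) (f : S ⊗ A ⟶ B) :
    (ks S).obj X ◁ of f = of (sw S X A ≫ X ◁ f) := rfl

theorem of_tensor (f : S ⊗ A ⟶ B) (g : S ⊗ A' ⟶ B') :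
    of f ⊗ₘ of g = of (T.delS S A A' ≫ (f ⊗ₘ g)) := by
  rw [tensorHom_def']
  change dd S (A ⊗ A') ≫ S ◁ (sw S A A' ≫ A ◁ g) ≫ (α_ S A B').inv ≫ f ▷ B' = _ ≫ (f ⊗ₘ g)
  rw [MonoidalCategory.whiskerLeft_comp, Category.assoc, associator_inv_naturality_right_assoc,
    tensorHom_def']
  simp only [dd, sw, T.delS, tensorμ]
  monoidal

instance [IsInv A] : IsInv ((ks S).obj A) := isInv_map _ _

variable [Preadditive H] [MonoidalPreadditive H] {a : A ⟶ B} {b : B ⟶ D}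

theorem ex_ks (h : Ex a b) : Ex ((ks S).map a) ((ks S).map b) := fun Y W f hf => by
  obtain ⟨g, hg⟩ := h Y.obj (S ⊗ W.obj) (un f) ((un_comp_ks f (Y.obj ◁ b)).symm.trans
    (congrArg un ((congrArg (f ≫ ·) (ks_whiskerLeft Y.obj b)).trans hf)))
  exact ⟨kl g, (congrArg (kl g ≫ ·) (ks_whiskerLeft Y.obj a).symm).trans
    (hom_ext ((un_comp_ks _ _).trans hg))⟩

theorem coEx_ks (h : CoEx a b) : CoEx ((ks S).map a) ((ks S).map b) := fun Y W f hf => by
  have k : S ◁ Y.obj ◁ a ≫ un f = 0 := (un_ks_comp (Y.obj ◁ a) f).symm.trans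
    (congrArg un ((congrArg (· ≫ f) (ks_whiskerLeft Y.obj a)).trans hf))
  obtain ⟨g, hg⟩ := h (S ⊗ Y.obj) W.obj ((α_ _ _ _).hom ≫ un f) (by
    rw [associator_naturality_right_assoc, k, comp_zero])
  refine ⟨kl ((α_ _ _ _).inv ≫ g), (congrArg (· ≫ _) (ks_whiskerLeft Y.obj b).symm).trans
    (hom_ext ((un_ks_comp _ _).trans ?_))⟩
  change S ◁ Y.obj ◁ b ≫ (α_ _ _ _).inv ≫ g = _
  rw [associator_inv_naturality_right_assoc, hg, Iso.inv_hom_id_assoc]

theorem tr_ks {c : D ⟶ A ⊗ X} (h : Tr X a b c) :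
    Tr ((ks S).obj X) ((ks S).map a) ((ks S).map b) ((ks S).map c) := by
  have z : ∀ {A B D : H} {a : A ⟶ B} {b : B ⟶ D}, a ≫ b = 0 → (ks S).map a ≫ (ks S).map b = 0 :=
    fun k => by rw [← Functor.map_comp, k, Functor.map_zero]
  exact ⟨ex_ks h.ex₁, ex_ks h.ex₂, ks_whiskerRight (S := S) a X ▸ ex_ks h.ex₃, coEx_ks h.co₁,
    coEx_ks h.co₂, ks_whiskerRight (S := S) a X ▸ coEx_ks h.co₃, z h.z₁, z h.z₂,
    ks_whiskerRight (S := S) a X ▸ z h.z₃⟩

end Kl

theorem tr_of_tri [Preadditive H] [MonoidalPreadditive H] [SymmetricCategory H] {X A B D : H}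
    [IsInv X] {T : L.TriStr X} {a : A ⟶ B} {b : B ⟶ D} {c : D ⟶ A ⊗ X} (h : T.Tri a b c) :
    Tr X a b c := by
  have ex : ∀ {A B D : H} {a : A ⟶ B} {b : B ⟶ D} {c : D ⟶ A ⊗ X}, T.Tri a b c → Ex a b :=
    fun k Y _ => L.TriStr.co₂ (T.whiskerLeft Y k)
  have co : ∀ {A B D : H} {a : A ⟶ B} {b : B ⟶ D} {c : D ⟶ A ⊗ X}, T.Tri a b c → CoEx a b :=
    fun k Y _ => L.TriStr.contra₂ (T.whiskerLeft Y k)
  exact ⟨ex h, ex (T.rot h), Z.Ex.of_iso (ex (T.rot (T.rot h))) (Iso.refl _) (Iso.refl _)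
      ⟨-𝟙 _, -𝟙 _, by simp, by simp⟩ (by simp) (by simp), co h, co (T.rot h),
    (co (T.rot (T.rot h))).of_iso (Iso.refl _) (Iso.refl _) ⟨-𝟙 _, -𝟙 _, by simp, by simp⟩
      (by simp) (by simp), L.TriStr.comp₁ h, L.TriStr.comp₂ h, L.TriStr.comp₃ h⟩

namespace Kl.Vtx

variable {S : H} [ComonObj S] {R R' : H ⥤ E} [R.Monoidal] [R'.Monoidal]

/-- the image of a point under a monoidal functor -/
def comp (x : Vtx S R) (T : E ⥤ E') [T.Monoidal] : Vtx S (R ⋙ T) where
  v := ε T ≫ T.map x.v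
  counit := by
    rw [Functor.comp_map, Category.assoc, ← T.map_comp, x.counit, comp_ε]
  comul := by
    rw [Functor.comp_map, Category.assoc, ← T.map_comp, x.comul, comp_μ, T.map_comp, T.map_comp,
      ← tensorHom_comp_tensorHom, Category.assoc, μ_natural_assoc, tensorHom_def' (ε T),
      Category.assoc, ← leftUnitor_inv_naturality_assoc, Functor.LaxMonoidal.left_unitality_inv_assoc]

/-- transport of a point along a monoidal transformation -/
def ofNat (x : Vtx S R) (τ : R ⟶ R') [τ.IsMonoidal] : Vtx S R' where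
  v := x.v ≫ τ.app S
  counit := by rw [Category.assoc, ← τ.naturality, reassoc_of% x.counit, NatTrans.IsMonoidal.unit]
  comul := by
    rw [Category.assoc, ← τ.naturality, reassoc_of% x.comul, NatTrans.IsMonoidal.tensor,
      tensorHom_comp_tensorHom_assoc]

/-- a point of the image comonoid -/
def ofComp (F : H ⥤ E) [F.Monoidal] (T : E ⥤ E') [T.Monoidal] [ComonObj (F.obj S)]
    (h : ComonObj.counit (X := F.obj S) = F.map ComonObj.counit ≫ η F)
    (h' : ComonObj.comul (X := F.obj S) = F.map ComonObj.comul ≫ δ F S S) (x : Vtx S (F ⋙ T)) :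
    Vtx (F.obj S) T where
  v := x.v
  counit := by
    have k : x.v ≫ T.map (F.map ComonObj.counit) = ε T ≫ T.map (ε F) := x.counit
    rw [h, T.map_comp, reassoc_of% k, ← T.map_comp, Functor.Monoidal.ε_η, T.map_id,
      Category.comp_id]
  comul := by
    have k : x.v ≫ T.map (F.map ComonObj.comul) =
      (λ_ _).inv ≫ (x.v ⊗ₘ x.v) ≫ μ T _ _ ≫ T.map (μ F S S) := x.comul
    rw [h', T.map_comp, reassoc_of% k, ← T.map_comp, Functor.Monoidal.μ_δ, T.map_id,
      Category.comp_id]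

end Kl.Vtx

section st

open Vale.Agent.P251.H

variable {M : Type u} [Category.{v} M] [MonoidalCategory M] [SymmetricCategory M]
  [MonoidalClosed M] [HasZeroMorphisms M] [HasColimitsOfSize.{0, 0} M] [StabInput M]
  (D : Stab M) (S : M) [ComonObj S]

noncomputable instance : ComonObj ((st D).obj S) := Functor.obj.instComonObj S (st D)

instance [IsCommComonObj S] : IsCommComonObj ((st D).obj S) := T.isCommComonObj_map (st D) S

theorem st_counit : (ComonObj.counit : (st D).obj S ⟶ _) = (st D).map ComonObj.counit :=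
  Category.comp_id _

theorem st_comul : (ComonObj.comul : (st D).obj S ⟶ _) = (st D).map ComonObj.comul :=
  Category.comp_id _

theorem st_ee (A : M) : (st D).map (Kl.ee S A) = Kl.ee ((st D).obj S) ((st D).obj A) := by
  rw [Kl.ee, Kl.ee, st_counit, Functor.map_comp, SC.st_whiskerRight, SC.st_leftUnitor_hom]

theorem st_dd (A : M) : (st D).map (Kl.dd S A) = Kl.dd ((st D).obj S) ((st D).obj A) := by
  rw [Kl.dd, Kl.dd, st_comul, Functor.map_comp, SC.st_whiskerRight, SC.st_associator_hom]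

end st

end Vale.Agent.P257.K
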