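import Mathlib.CategoryTheory.Monoidal.Comon_
import Mathlib.CategoryTheory.Monoidal.Preadditive
import Mathlib.CategoryTheory.Preadditive.AdditiveFunctor
import Mathlib.CategoryTheory.Adjunction.Basic

/-!
# P257, block K: the co-Kleisli category of a comonoid

For a cocommutative comonoid `S` of a symmetric monoidal category `H`, `Kl S` has the objects of
`H` and the morphisms `S ⊗ P ⟶ Y`.  It is symmetric monoidal (and preadditive if `H` is);
`ks S : H ⥤ Kl S` is strict monoidal with left adjoint `fr S`.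
-/

open CategoryTheory MonoidalCategory Limits

namespace Vale.Agent.P257.K

set_option linter.unusedSectionVars false

universe v u v' u'

variable {H : Type u} [Category.{v} H] [MonoidalCategory H]

/-- the co-Kleisli category -/
structure Kl (S : H) where
  /-- the underlying object -/
  obj : H

namespace Kl

variable (S : H) [ComonObj S]

/-- the comultiplication of the comonad -/
def dd (P : H) : S ⊗ P ⟶ S ⊗ S ⊗ P := ComonObj.comul ▷ P ≫ (α_ S S P).hom

/-- the counit of the comonad -/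
def ee (P : H) : S ⊗ P ⟶ P := ComonObj.counit ▷ P ≫ (λ_ P).hom

@[reassoc]
theorem dd_nat {P Y : H} (f : P ⟶ Y) : S ◁ f ≫ dd S Y = dd S P ≫ S ◁ S ◁ f := by
  rw [dd, dd, whisker_exchange_assoc, associator_naturality_right, Category.assoc]

@[reassoc]
theorem ee_nat {P Y : H} (f : P ⟶ Y) : S ◁ f ≫ ee S Y = ee S P ≫ f := by
  rw [ee, ee, whisker_exchange_assoc, leftUnitor_naturality, Category.assoc]

@[reassoc (attr := simp)]
theorem dd_ee (P : H) : dd S P ≫ ee S (S ⊗ P) = 𝟙 _ := by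
  rw [dd, ee, Category.assoc, ← associator_naturality_left_assoc, ← comp_whiskerRight_assoc,
    ComonObj.counit_comul]
  monoidal

@[reassoc (attr := simp)]
theorem dd_whisker_ee (P : H) : dd S P ≫ S ◁ ee S P = 𝟙 _ := by
  rw [dd, ee, Category.assoc, MonoidalCategory.whiskerLeft_comp,
    ← associator_naturality_middle_assoc, ← comp_whiskerRight_assoc, ComonObj.comul_counit]
  monoidal

@[reassoc]
theorem dd_dd (P : H) : dd S P ≫ S ◁ dd S P = dd S P ≫ dd S (S ⊗ P) := by
  simp only [dd, Category.assoc, MonoidalCategory.whiskerLeft_comp]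
  rw [← associator_naturality_middle_assoc, ← comp_whiskerRight_assoc, ComonObj.comul_assoc]
  monoidal

instance : Category.{v} (Kl S) where
  Hom P Y := S ⊗ P.obj ⟶ Y.obj
  id P := ee S P.obj
  comp {P _ _} f g := dd S P.obj ≫ S ◁ f ≫ g
  id_comp _ := dd_whisker_ee_assoc S _ _
  comp_id f := by rw [ee_nat, dd_ee_assoc]
  assoc f g h := by
    simp only [MonoidalCategory.whiskerLeft_comp, Category.assoc]
    rw [dd_dd_assoc, dd_nat_assoc]

variable {S} {P Y Z : Kl S} {A B C : H}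

/-- the underlying morphism -/
def un (f : P ⟶ Y) : S ⊗ P.obj ⟶ Y.obj := f

/-- the co-Kleisli morphism given by a morphism -/
def kl (f : S ⊗ P.obj ⟶ Y.obj) : P ⟶ Y := f

theorem hom_ext {f g : P ⟶ Y} (h : un f = un g) : f = g := h

@[simp] theorem un_kl (f : S ⊗ P.obj ⟶ Y.obj) : un (kl f : P ⟶ Y) = f := rfl

@[simp] theorem kl_un (f : P ⟶ Y) : kl (un f) = f := rfl

theorem un_id (P : Kl S) : un (𝟙 P) = ee S P.obj := rfl

theorem un_comp (f : P ⟶ Y) (g : Y ⟶ Z) : un (f ≫ g) = dd S P.obj ≫ S ◁ un f ≫ un g := rfl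

variable (S) in
/-- the canonical functor to the co-Kleisli category -/
@[implicit_reducible] def ks : H ⥤ Kl S where
  obj A := ⟨A⟩
  map f := kl (ee S _ ≫ f)
  map_id _ := Category.comp_id _
  map_comp f g := hom_ext (by
    rw [un_comp, un_kl, un_kl, un_kl, ee_nat_assoc, dd_ee_assoc, Category.assoc])

theorem ks_obj (A : H) : (ks S).obj A = ⟨A⟩ := rfl

@[simp] theorem ks_obj_obj (A : H) : ((ks S).obj A).obj = A := rfl

theorem un_ks (f : A ⟶ B) : un ((ks S).map f) = ee S A ≫ f := rfl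

theorem un_ks_comp (f : A ⟶ B) (g : (ks S).obj B ⟶ Z) : un ((ks S).map f ≫ g) = S ◁ f ≫ un g := by
  change dd S A ≫ S ◁ (ee S A ≫ f) ≫ un g = _
  rw [MonoidalCategory.whiskerLeft_comp, Category.assoc, dd_whisker_ee_assoc]

theorem un_comp_ks (f : P ⟶ (ks S).obj B) (g : B ⟶ C) : un (f ≫ (ks S).map g) = un f ≫ g :=
  (congrArg (dd S _ ≫ ·) (ee_nat_assoc S (un f) g)).trans (dd_ee_assoc S _ _)

variable (S) in
/-- the left adjoint `P ↦ S ⊗ P` -/
@[implicit_reducible] def fr : Kl S ⥤ H where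
  obj P := S ⊗ P.obj
  map f := dd S _ ≫ S ◁ un f
  map_id _ := dd_whisker_ee S _
  map_comp f g := by
    simp only [un_comp, MonoidalCategory.whiskerLeft_comp, Category.assoc]
    rw [dd_dd_assoc, dd_nat_assoc]

theorem fr_map (f : P ⟶ Y) : (fr S).map f = dd S _ ≫ S ◁ un f := rfl

theorem fr_ks (f : A ⟶ B) : (fr S).map ((ks S).map f) = S ◁ f := by
  change dd S A ≫ S ◁ (ee S A ≫ f) = _
  rw [MonoidalCategory.whiskerLeft_comp, dd_whisker_ee_assoc]

theorem un_comp' (f : P ⟶ Y) (g : Y ⟶ Z) : un (f ≫ g) = (fr S).map f ≫ un g :=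
  (Category.assoc _ _ _).symm

/-- the unit of the adjunction -/
def pt (P : Kl S) : P ⟶ (ks S).obj (S ⊗ P.obj) := kl (𝟙 _)

theorem un_pt (P : Kl S) : un (pt P) = 𝟙 _ := rfl

theorem pt_ks (f : P ⟶ (ks S).obj B) : pt P ≫ (ks S).map (un f) = f :=
  hom_ext ((un_comp_ks _ _).trans (Category.id_comp _))

variable (S) in
/-- the adjunction -/
def adj : fr S ⊣ ks S := Adjunction.mkOfHomEquiv
  { homEquiv _ _ := ⟨kl, un, fun _ => rfl, fun _ => rfl⟩
    homEquiv_naturality_left_symm := un_comp'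
    homEquiv_naturality_right f g := hom_ext (un_comp_ks (kl f) g).symm }

section add

variable [Preadditive H] [MonoidalPreadditive H]

instance : Preadditive (Kl S) where
  homGroup P Y := inferInstanceAs (AddCommGroup (S ⊗ P.obj ⟶ Y.obj))
  add_comp P Y Z f f' g := by
    change dd S _ ≫ S ◁ (un f + un f') ≫ un g = dd S _ ≫ S ◁ un f ≫ un g + dd S _ ≫ S ◁ un f' ≫ un g
    rw [MonoidalPreadditive.whiskerLeft_add, Preadditive.add_comp, Preadditive.comp_add]
  comp_add P Y Z f g g' := by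
    change dd S _ ≫ S ◁ un f ≫ (un g + un g') = dd S _ ≫ S ◁ un f ≫ un g + dd S _ ≫ S ◁ un f ≫ un g'
    rw [Preadditive.comp_add, Preadditive.comp_add]

@[simp] theorem un_zero : un (0 : P ⟶ Y) = 0 := rfl

@[simp] theorem un_add (f g : P ⟶ Y) : un (f + g) = un f + un g := rfl

@[simp] theorem un_neg (f : P ⟶ Y) : un (-f) = -un f := rfl

@[simp] theorem un_sub (f g : P ⟶ Y) : un (f - g) = un f - un g := rfl

@[simp] theorem un_zsmul (n : ℤ) (f : P ⟶ Y) : un (n • f) = n • un f := rfl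

@[simp] theorem un_nsmul (n : ℕ) (f : P ⟶ Y) : un (n • f) = n • un f := rfl

theorem un_eq_zero {f : P ⟶ Y} : un f = 0 ↔ f = 0 := Iff.rfl

instance : (ks S).Additive where
  map_add := hom_ext (Preadditive.comp_add _ _ _ _ _ _)

instance : (fr S).Additive where
  map_add := by
    intro _ _ f g
    rw [fr_map, fr_map, fr_map, un_add, MonoidalPreadditive.whiskerLeft_add, Preadditive.comp_add]

end add

section mon

variable [SymmetricCategory H]

variable (S) in
/-- `S ⊗ X ⊗ P ⟶ X ⊗ S ⊗ P` -/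
def sw (X P : H) : S ⊗ X ⊗ P ⟶ X ⊗ S ⊗ P :=
  (α_ S X P).inv ≫ (β_ S X).hom ▷ P ≫ (α_ X S P).hom

omit [ComonObj S] in
@[reassoc]
theorem sw_nat_left (f : A ⟶ B) (C : H) : S ◁ f ▷ C ≫ sw S B C = sw S A C ≫ f ▷ (S ⊗ C) := by
  simp only [sw, Category.assoc]
  rw [associator_inv_naturality_middle_assoc, ← comp_whiskerRight_assoc,
    BraidedCategory.braiding_naturality_right, comp_whiskerRight, Category.assoc,
    associator_naturality_left]

omit [ComonObj S] in
@[reassoc]
theorem sw_nat_right (A : H) (f : B ⟶ C) : S ◁ A ◁ f ≫ sw S A C = sw S A B ≫ A ◁ S ◁ f := by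
  simp only [sw, Category.assoc]
  rw [associator_inv_naturality_right_assoc, whisker_exchange_assoc, associator_naturality_right]

@[reassoc]
theorem sw_ee (A B : H) : sw S A B ≫ A ◁ ee S B = ee S (A ⊗ B) := by
  simp only [sw, ee, Category.assoc, MonoidalCategory.whiskerLeft_comp]
  rw [← associator_naturality_middle_assoc, ← comp_whiskerRight_assoc,
    ← BraidedCategory.braiding_naturality_left, braiding_tensorUnit_left]
  monoidal

omit [SymmetricCategory H] in
@[reassoc]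
theorem assoc_ee (A B : H) : (α_ S A B).inv ≫ ee S A ▷ B = ee S (A ⊗ B) := by
  simp only [ee]
  monoidal

@[reassoc]
theorem sw_dd (A B : H) :
    sw S A B ≫ A ◁ dd S B = dd S (A ⊗ B) ≫ S ◁ sw S A B ≫ sw S A (S ⊗ B) := by
  simp only [sw, dd, Category.assoc, MonoidalCategory.whiskerLeft_comp]
  rw [← associator_naturality_middle_assoc, ← comp_whiskerRight_assoc,
    ← BraidedCategory.braiding_naturality_left, BraidedCategory.braiding_tensor_left_hom]
  monoidal

omit [SymmetricCategory H] in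
@[reassoc]
theorem assoc_dd (A B : H) : (α_ S A B).inv ≫ dd S A ▷ B =
    dd S (A ⊗ B) ≫ S ◁ (α_ S A B).inv ≫ (α_ S (S ⊗ A) B).inv := by
  simp only [dd]
  monoidal

@[reassoc]
theorem dd_exchange [IsCommComonObj S] (A B : H) :
    dd S (A ⊗ B) ≫ S ◁ sw S A B ≫ (α_ S A (S ⊗ B)).inv =
      dd S (A ⊗ B) ≫ S ◁ (α_ S A B).inv ≫ sw S (S ⊗ A) B := by
  simp only [sw, dd, Category.assoc, MonoidalCategory.whiskerLeft_comp]
  conv_lhs => rw [← IsCommComonObj.comul_comm]
  rw [BraidedCategory.braiding_tensor_right_hom]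
  monoidal

instance : MonoidalCategoryStruct (Kl S) where
  tensorObj X Y := ⟨X.obj ⊗ Y.obj⟩
  whiskerLeft Z _ _ x := kl (sw S _ _ ≫ Z.obj ◁ un x)
  whiskerRight x Z := kl ((α_ S _ _).inv ≫ un x ▷ Z.obj)
  tensorUnit := ⟨𝟙_ H⟩
  associator X Y Z := (ks S).mapIso (α_ X.obj Y.obj Z.obj)
  leftUnitor X := (ks S).mapIso (λ_ X.obj)
  rightUnitor X := (ks S).mapIso (ρ_ X.obj)

@[simp] theorem tensor_obj (X Y : Kl S) : (X ⊗ Y).obj = X.obj ⊗ Y.obj := rfl

@[simp] theorem unit_obj : (𝟙_ (Kl S)).obj = 𝟙_ H := rfl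

theorem ks_tensor (A B : H) : (ks S).obj (A ⊗ B) = (ks S).obj A ⊗ (ks S).obj B := rfl

theorem ks_unit : (ks S).obj (𝟙_ H) = 𝟙_ (Kl S) := rfl

theorem un_whiskerLeft (Z : Kl S) (x : P ⟶ Y) :
    un (Z ◁ x) = sw S Z.obj P.obj ≫ Z.obj ◁ un x := rfl

theorem un_whiskerRight (x : P ⟶ Y) (Z : Kl S) :
    un (x ▷ Z) = (α_ S P.obj Z.obj).inv ≫ un x ▷ Z.obj := rfl

theorem ks_whiskerLeft (Z : H) (f : A ⟶ B) :
    (ks S).map (Z ◁ f) = (ks S).obj Z ◁ (ks S).map f := hom_ext (by
  change ee S _ ≫ Z ◁ f = sw S Z A ≫ Z ◁ (ee S A ≫ f)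
  rw [MonoidalCategory.whiskerLeft_comp, sw_ee_assoc])

theorem ks_whiskerRight (f : A ⟶ B) (Z : H) :
    (ks S).map (f ▷ Z) = (ks S).map f ▷ (ks S).obj Z := hom_ext (by
  change ee S _ ≫ f ▷ Z = (α_ S A Z).inv ≫ (ee S A ≫ f) ▷ Z
  rw [comp_whiskerRight, assoc_ee_assoc])

theorem wl_comp (X : Kl S) (y : P ⟶ Y) (z : Y ⟶ Z) : X ◁ (y ≫ z) = X ◁ y ≫ X ◁ z := hom_ext (by
  simp only [un_comp, un_whiskerLeft, MonoidalCategory.whiskerLeft_comp, Category.assoc,
    tensor_obj]
  rw [sw_dd_assoc, sw_nat_right_assoc])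

theorem wr_comp (y : P ⟶ Y) (z : Y ⟶ Z) (X : Kl S) : (y ≫ z) ▷ X = y ▷ X ≫ z ▷ X := hom_ext (by
  simp only [un_comp, un_whiskerRight, MonoidalCategory.whiskerLeft_comp, comp_whiskerRight,
    Category.assoc, tensor_obj]
  rw [assoc_dd_assoc, associator_inv_naturality_middle_assoc])

theorem wl_id (X Y : Kl S) : X ◁ 𝟙 Y = 𝟙 (X ⊗ Y) := hom_ext (sw_ee _ _)

theorem wr_id (X Y : Kl S) : 𝟙 X ▷ Y = 𝟙 (X ⊗ Y) := hom_ext (assoc_ee _ _)

theorem assoc_nat₁ (x : P ⟶ Y) (Z W : Kl S) :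
    (x ▷ Z) ▷ W ≫ (α_ Y Z W).hom = (α_ P Z W).hom ≫ x ▷ (Z ⊗ W) :=
  hom_ext ((un_comp_ks _ _).trans (Eq.trans (by
    simp only [un_whiskerRight, tensor_obj]
    monoidal) (un_ks_comp _ _).symm))

theorem assoc_nat₂ (Z : Kl S) (x : P ⟶ Y) (W : Kl S) :
    (Z ◁ x) ▷ W ≫ (α_ Z Y W).hom = (α_ Z P W).hom ≫ Z ◁ (x ▷ W) :=
  hom_ext ((un_comp_ks _ _).trans (Eq.trans (by
    simp only [un_whiskerRight, un_whiskerLeft, tensor_obj, sw]
    monoidal) (un_ks_comp _ _).symm))

theorem assoc_nat₃ (Z W : Kl S) (x : P ⟶ Y) :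
    (Z ⊗ W) ◁ x ≫ (α_ Z W Y).hom = (α_ Z W P).hom ≫ Z ◁ (W ◁ x) :=
  hom_ext ((un_comp_ks _ _).trans (Eq.trans (by
    simp only [un_whiskerLeft, tensor_obj, sw, BraidedCategory.braiding_tensor_right_hom]
    monoidal) (un_ks_comp _ _).symm))

theorem braid_nat_left (x : P ⟶ Y) (Z : Kl S) : x ▷ Z ≫ (ks S).map (β_ Y.obj Z.obj).hom =
    (ks S).map (β_ P.obj Z.obj).hom ≫ Z ◁ x :=
  hom_ext ((un_comp_ks _ _).trans (Eq.trans (by
    simp only [un_whiskerRight, un_whiskerLeft, sw, Category.assoc,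
      BraidedCategory.braiding_naturality_left, BraidedCategory.braiding_tensor_left_hom]
    monoidal) (un_ks_comp _ _).symm))

variable [IsCommComonObj S]

theorem exchange {W X : Kl S} (x : W ⟶ X) (y : Y ⟶ Z) : W ◁ y ≫ x ▷ Z = x ▷ Y ≫ X ◁ y :=
  hom_ext (by
    simp only [un_comp, un_whiskerRight, un_whiskerLeft, MonoidalCategory.whiskerLeft_comp,
      Category.assoc, tensor_obj]
    rw [associator_inv_naturality_right_assoc, sw_nat_left_assoc, whisker_exchange,
      dd_exchange_assoc])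

instance : MonoidalCategory (Kl S) where
  tensorHom_def _ _ := rfl
  id_tensorHom_id X Y := (congrArg₂ (· ≫ ·) (wr_id X Y) (wl_id X Y)).trans (Category.id_comp _)
  tensorHom_comp_tensorHom {X₁ Y₁ Z₁ X₂ Y₂ Z₂} f₁ f₂ g₁ g₂ := by
    change (f₁ ▷ X₂ ≫ Y₁ ◁ f₂) ≫ g₁ ▷ Y₂ ≫ Z₁ ◁ g₂ = (f₁ ≫ g₁) ▷ X₂ ≫ Z₁ ◁ (f₂ ≫ g₂)
    rw [wl_comp, wr_comp, Category.assoc, Category.assoc, reassoc_of% (exchange g₁ f₂)]
  whiskerLeft_id := wl_id
  id_whiskerRight := wr_id
  associator_naturality {X₁ X₂ X₃ Y₁ Y₂ Y₃} f₁ f₂ f₃ := by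
    change ((f₁ ▷ X₂ ≫ Y₁ ◁ f₂) ▷ X₃ ≫ (Y₁ ⊗ Y₂) ◁ f₃) ≫ _ =
      _ ≫ f₁ ▷ (X₂ ⊗ X₃) ≫ Y₁ ◁ (f₂ ▷ X₃ ≫ Y₂ ◁ f₃)
    rw [wl_comp, wr_comp, Category.assoc, Category.assoc, assoc_nat₃, reassoc_of% assoc_nat₂,
      reassoc_of% assoc_nat₁]
  leftUnitor_naturality x := hom_ext ((un_comp_ks _ _).trans (Eq.trans (by
    simp only [un_whiskerLeft, unit_obj, sw, braiding_tensorUnit_right]
    monoidal) (un_ks_comp _ _).symm))
  rightUnitor_naturality x := hom_ext ((un_comp_ks _ _).trans (Eq.trans (by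
    simp only [un_whiskerRight, unit_obj]
    monoidal) (un_ks_comp _ _).symm))
  pentagon W X Y Z := by
    have := congrArg (ks S).map (pentagon W.obj X.obj Y.obj Z.obj)
    simp only [Functor.map_comp, ks_whiskerLeft, ks_whiskerRight] at this
    exact this
  triangle X Y := by
    have := congrArg (ks S).map (triangle X.obj Y.obj)
    simp only [Functor.map_comp, ks_whiskerLeft, ks_whiskerRight] at this
    exact this

instance : SymmetricCategory (Kl S) where
  braiding X Y := (ks S).mapIso (β_ X.obj Y.obj)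
  braiding_naturality_right X Y Z x := by
    have h := braid_nat_left x X
    rw [SymmetricCategory.braiding_swap_eq_inv_braiding X.obj Z.obj,
      SymmetricCategory.braiding_swap_eq_inv_braiding X.obj Y.obj] at h
    exact (((ks S).mapIso (β_ X.obj Y.obj)).inv_comp_eq.1 ((Category.assoc _ _ _).symm.trans
      ((((ks S).mapIso (β_ X.obj Z.obj)).comp_inv_eq.1 h).symm)))
  braiding_naturality_left := braid_nat_left
  hexagon_forward X Y Z := by
    have := congrArg (ks S).map (BraidedCategory.hexagon_forward X.obj Y.obj Z.obj)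
    simp only [Functor.map_comp, ks_whiskerLeft, ks_whiskerRight] at this
    exact this
  hexagon_reverse X Y Z := by
    have := congrArg (ks S).map (BraidedCategory.hexagon_reverse X.obj Y.obj Z.obj)
    simp only [Functor.map_comp, ks_whiskerLeft, ks_whiskerRight] at this
    exact this
  symmetry X Y := ((ks S).map_comp _ _).symm.trans
    ((congrArg _ (SymmetricCategory.symmetry _ _)).trans ((ks S).map_id _))

theorem ks_associator_hom (A B C : H) :
    (ks S).map (α_ A B C).hom = (α_ ((ks S).obj A) ((ks S).obj B) ((ks S).obj C)).hom := rfl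

theorem ks_associator_inv (A B C : H) :
    (ks S).map (α_ A B C).inv = (α_ ((ks S).obj A) ((ks S).obj B) ((ks S).obj C)).inv := rfl

theorem ks_leftUnitor_hom (A : H) : (ks S).map (λ_ A).hom = (λ_ ((ks S).obj A)).hom := rfl

theorem ks_leftUnitor_inv (A : H) : (ks S).map (λ_ A).inv = (λ_ ((ks S).obj A)).inv := rfl

theorem ks_rightUnitor_hom (A : H) : (ks S).map (ρ_ A).hom = (ρ_ ((ks S).obj A)).hom := rfl

theorem ks_rightUnitor_inv (A : H) : (ks S).map (ρ_ A).inv = (ρ_ ((ks S).obj A)).inv := rfl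

theorem ks_braiding_hom (A B : H) :
    (ks S).map (β_ A B).hom = (β_ ((ks S).obj A) ((ks S).obj B)).hom := rfl

theorem ks_braiding_inv (A B : H) :
    (ks S).map (β_ A B).inv = (β_ ((ks S).obj A) ((ks S).obj B)).inv := rfl

theorem ks_tensorHom {A' B' : H} (f : A ⟶ B) (g : A' ⟶ B') :
    (ks S).map (f ⊗ₘ g) = (ks S).map f ⊗ₘ (ks S).map g := by
  rw [tensorHom_def, tensorHom_def, Functor.map_comp, ks_whiskerLeft, ks_whiskerRight]

variable (S) in
/-- the strict monoidal structure of `ks S` -/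
def ksCore : (ks S).CoreMonoidal where
  εIso := Iso.refl _
  μIso _ _ := Iso.refl _
  μIso_hom_natural_left f Z := (Category.comp_id _).trans
    ((ks_whiskerRight f Z).symm.trans (Category.id_comp _).symm)
  μIso_hom_natural_right Z f := (Category.comp_id _).trans
    ((ks_whiskerLeft Z f).symm.trans (Category.id_comp _).symm)
  associativity X Y Z := by simp [ks_associator_hom]
  left_unitality X := by simp [ks_leftUnitor_hom]
  right_unitality X := by simp [ks_rightUnitor_hom]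

instance : (ks S).Monoidal := (ksCore S).toMonoidal

@[simp] theorem ks_μ (A B : H) : Functor.LaxMonoidal.μ (ks S) A B = 𝟙 _ := rfl

@[simp] theorem ks_δ (A B : H) : Functor.OplaxMonoidal.δ (ks S) A B = 𝟙 _ := rfl

@[simp] theorem ks_ε : Functor.LaxMonoidal.ε (ks S) = 𝟙 _ := rfl

@[simp] theorem ks_η : Functor.OplaxMonoidal.η (ks S) = 𝟙 _ := rfl

instance : (ks S).Braided where
  braided _ _ := (Category.id_comp _).trans (Category.comp_id _).symm

instance [Preadditive H] [MonoidalPreadditive H] : MonoidalPreadditive (Kl S) where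
  whiskerLeft_zero := hom_ext (by
    rw [un_whiskerLeft, un_zero, MonoidalPreadditive.whiskerLeft_zero, comp_zero, un_zero])
  zero_whiskerRight := hom_ext (by
    rw [un_whiskerRight, un_zero, MonoidalPreadditive.zero_whiskerRight, comp_zero, un_zero])
  whiskerLeft_add f g := hom_ext (by
    rw [un_whiskerLeft, un_add, MonoidalPreadditive.whiskerLeft_add, Preadditive.comp_add, un_add,
      un_whiskerLeft, un_whiskerLeft])
  add_whiskerRight f g := hom_ext (by
    rw [un_whiskerRight, un_add, MonoidalPreadditive.add_whiskerRight, Preadditive.comp_add, un_add,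
      un_whiskerRight, un_whiskerRight])

end mon

section lift

open Functor.LaxMonoidal Functor.OplaxMonoidal

variable {E : Type u'} [Category.{v'} E] [MonoidalCategory E]

variable (S) in
/-- a point of the comonoid `R S` -/
structure Vtx (R : H ⥤ E) [R.Monoidal] where
  /-- the point -/
  v : 𝟙_ E ⟶ R.obj S
  counit : v ≫ R.map ComonObj.counit = ε R
  comul : v ≫ R.map ComonObj.comul = (λ_ _).inv ≫ (v ⊗ₘ v) ≫ μ R S S

variable {R : H ⥤ E} [R.Monoidal] (x : Vtx S R)

/-- the inclusion at the point -/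
def Vtx.pv (A : H) : R.obj A ⟶ R.obj (S ⊗ A) := (λ_ _).inv ≫ x.v ▷ R.obj A ≫ μ R S A

@[reassoc]
theorem Vtx.pv_nat (f : A ⟶ B) : x.pv A ≫ R.map (S ◁ f) = R.map f ≫ x.pv B := by
  simp only [Vtx.pv, Category.assoc]
  rw [← μ_natural_right, ← whisker_exchange_assoc, leftUnitor_inv_naturality_assoc]

@[reassoc (attr := simp)]
theorem Vtx.pv_ee (A : H) : x.pv A ≫ R.map (ee S A) = 𝟙 _ := by
  simp only [Vtx.pv, ee, Category.assoc, R.map_comp]
  rw [← μ_natural_left_assoc, ← comp_whiskerRight_assoc, x.counit,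
    ← Functor.LaxMonoidal.left_unitality, Iso.inv_hom_id]

@[reassoc]
theorem Vtx.pv_dd (A : H) : x.pv A ≫ R.map (dd S A) = x.pv A ≫ x.pv (S ⊗ A) := by
  simp only [Vtx.pv, dd, Category.assoc, R.map_comp]
  rw [← μ_natural_left_assoc, ← comp_whiskerRight_assoc, x.comul, comp_whiskerRight,
    comp_whiskerRight, Category.assoc, Category.assoc, Functor.LaxMonoidal.associativity,
    leftUnitor_inv_naturality_assoc, leftUnitor_inv_naturality_assoc, whisker_exchange_assoc,
    whisker_exchange_assoc, tensorHom_def]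
  monoidal

@[reassoc]
theorem Vtx.pv_assoc (A B : H) : μ R A B ≫ x.pv (A ⊗ B) ≫ R.map (α_ S A B).inv =
    x.pv A ▷ R.obj B ≫ μ R (S ⊗ A) B := by
  simp only [Vtx.pv, Category.assoc, comp_whiskerRight]
  rw [leftUnitor_inv_naturality_assoc, whisker_exchange_assoc,
    Functor.LaxMonoidal.associativity_inv]
  monoidal

/-- evaluation at the point -/
@[implicit_reducible] def Vtx.lift : Kl S ⥤ E where
  obj P := R.obj P.obj
  map f := x.pv _ ≫ R.map (un f)
  map_id _ := x.pv_ee _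
  map_comp f g := by
    rw [un_comp, R.map_comp, R.map_comp, x.pv_dd_assoc, x.pv_nat_assoc, ← x.pv_nat_assoc,
      Category.assoc, x.pv_nat_assoc]

theorem Vtx.lift_obj (P : Kl S) : x.lift.obj P = R.obj P.obj := rfl

theorem Vtx.lift_map (f : P ⟶ Y) : x.lift.map f = x.pv _ ≫ R.map (un f) := rfl

@[simp] theorem Vtx.lift_ks (f : A ⟶ B) : x.lift.map ((ks S).map f) = R.map f := by
  change x.pv A ≫ R.map (ee S A ≫ f) = _
  rw [R.map_comp, x.pv_ee_assoc]

instance [Preadditive H] [MonoidalPreadditive H] [Preadditive E] [R.Additive] :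
    x.lift.Additive where
  map_add := by
    intro _ _ f g
    rw [x.lift_map, un_add, R.map_add, Preadditive.comp_add, x.lift_map, x.lift_map]

end lift

section braided

open Functor.LaxMonoidal Functor.OplaxMonoidal

variable [SymmetricCategory H] [IsCommComonObj S] {E : Type u'} [Category.{v'} E]
  [MonoidalCategory E] [SymmetricCategory E] {R : H ⥤ E} [R.Braided] (x : Vtx S R)

omit [IsCommComonObj S] in
@[reassoc]
theorem Vtx.pv_sw (A B : H) : μ R A B ≫ x.pv (A ⊗ B) ≫ R.map (sw S A B) =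
    R.obj A ◁ x.pv B ≫ μ R A (S ⊗ B) := by
  rw [sw, R.map_comp, R.map_comp, x.pv_assoc_assoc, ← μ_natural_left_assoc]
  simp only [Vtx.pv, Category.assoc, MonoidalCategory.whiskerLeft_comp, ← comp_whiskerRight_assoc]
  rw [Functor.LaxBraided.braided, BraidedCategory.braiding_naturality_left_assoc,
    braiding_tensorUnit_left]
  simp only [comp_whiskerRight, Category.assoc]
  rw [Functor.LaxMonoidal.associativity]
  monoidal

/-- the monoidal structure of `x.lift` -/
def Vtx.core : x.lift.CoreMonoidal where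
  εIso := Functor.Monoidal.εIso R
  μIso X Y := Functor.Monoidal.μIso R X.obj Y.obj
  μIso_hom_natural_left {X Y} f Z := by
    change (x.pv _ ≫ R.map (un f)) ▷ R.obj Z.obj ≫ μ R _ _ =
      μ R _ _ ≫ x.pv _ ≫ R.map ((α_ S X.obj Z.obj).inv ≫ un f ▷ Z.obj)
    rw [R.map_comp, x.pv_assoc_assoc, comp_whiskerRight, Category.assoc, μ_natural_left]
  μIso_hom_natural_right {X Y} Z f := by
    change R.obj Z.obj ◁ (x.pv _ ≫ R.map (un f)) ≫ μ R _ _ =
      μ R _ _ ≫ x.pv _ ≫ R.map (sw S Z.obj X.obj ≫ Z.obj ◁ un f)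
    rw [R.map_comp, x.pv_sw_assoc, MonoidalCategory.whiskerLeft_comp, Category.assoc,
      μ_natural_right]
  associativity X Y Z :=
    (congrArg (_ ≫ _ ≫ ·) (x.lift_ks _)).trans
      (Functor.LaxMonoidal.associativity R X.obj Y.obj Z.obj)
  left_unitality X := (Functor.LaxMonoidal.left_unitality R X.obj).trans
    (congrArg (_ ≫ _ ≫ ·) (x.lift_ks _).symm)
  right_unitality X := (Functor.LaxMonoidal.right_unitality R X.obj).trans
    (congrArg (_ ≫ _ ≫ ·) (x.lift_ks _).symm)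

instance : x.lift.Monoidal := x.core.toMonoidal

theorem Vtx.lift_μ (X Y : Kl S) : μ x.lift X Y = μ R X.obj Y.obj := rfl

theorem Vtx.lift_δ (X Y : Kl S) : δ x.lift X Y = δ R X.obj Y.obj := rfl

theorem Vtx.lift_ε : ε x.lift = ε R := rfl

theorem Vtx.lift_η : η x.lift = η R := rfl

instance : x.lift.Braided where
  braided X Y := (congrArg (_ ≫ ·) (x.lift_ks _)).trans
    (Functor.LaxBraided.braided (F := R) X.obj Y.obj)

end braided

end Kl

/-- Isomorphisms lift along a functor which is bijective on the relevant morphisms. -/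
theorem exists_iso_of_map {C : Type u} [Category.{v} C] {E : Type u'} [Category.{v'} E]
    (F : C ⥤ E) {X Y : C} (e : F.obj X ≅ F.obj Y)
    (h : Function.Surjective (F.map : (X ⟶ Y) → _)) (h' : Function.Surjective (F.map : (Y ⟶ X) → _))
    (k : Function.Injective (F.map : (X ⟶ X) → _)) (k' : Function.Injective (F.map : (Y ⟶ Y) → _)) :
    ∃ i : X ≅ Y, F.map i.hom = e.hom := by
  obtain ⟨f, hf⟩ := h e.hom
  obtain ⟨g, hg⟩ := h' e.inv
  exact ⟨⟨f, g, k (by rw [F.map_comp, hf, hg, e.hom_inv_id, F.map_id]),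
    k' (by rw [F.map_comp, hf, hg, e.inv_hom_id, F.map_id])⟩, hf⟩

end Vale.Agent.P257.K
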