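import Vale.Agent.P251.H.PiGrp

/-!
# P257, block K: composition of stable classes
-/

open CategoryTheory MonoidalCategory Limits

namespace Vale.Agent.P257.K

open Vale.Agent.P251.H

universe v u v' u'

variable {K : Type u} [Category.{v} K] (P : CoPt K) {A B C C' : K}

/-- the inverse of the map induced by `tk` -/
noncomputable def up (l : ℕ) (x : P.Pi A B) : P.Pi A (P.pw l B) :=
  (Equiv.ofBijective _ (P.bijective_map_tk l A B)).symm x

theorem map_up (l : ℕ) (x : P.Pi A B) : P.map A (P.tk l B) (up P l x) = x :=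
  (Equiv.ofBijective _ (P.bijective_map_tk l A B)).apply_symm_apply x

theorem up_map (l : ℕ) (x : P.Pi A (P.pw l B)) : up P l (P.map A (P.tk l B) x) = x :=
  (Equiv.ofBijective _ (P.bijective_map_tk l A B)).symm_apply_apply x

theorem map_tr_up {l m : ℕ} (h : l ≤ m) (x : P.Pi A B) :
    P.map A (P.tr h B) (up P m x) = up P l x :=
  (P.bijective_map_tk l A B).1 (by rw [← P.map_comp, P.tr_tk, map_up, map_up])

/-- composition of stable classes -/
noncomputable def pcomp (x : P.Pi A B) (y : P.Pi B C) : P.Pi A C :=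
  Quotient.lift (s := P.piSetoid B C) (fun y => P.map A y.2 (up P y.1 x))
    (fun _ _ ⟨m, h, h', e⟩ => by
      rw [← map_tr_up P h, ← map_tr_up P h', ← P.map_comp, e, P.map_comp]) y

theorem pcomp_cl (l : ℕ) (x : P.Pi A (P.pw l B)) (y : P.pw l B ⟶ C) :
    pcomp P (P.map A (P.tk l B) x) (P.cl l y) = P.map A y x :=
  congrArg (P.map A y) (up_map P l x)

theorem pcomp_map (x : P.Pi A B) (y : P.Pi B C) (f : C ⟶ C') :
    pcomp P x (P.map B f y) = P.map A f (pcomp P x y) := by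
  obtain ⟨l, y, rfl⟩ := CoPt.cl_surj y
  exact P.map_comp _ _ _ _

theorem pcomp_zero (x : P.Pi A B) (f : B ⟶ C) : pcomp P x (P.cl 0 f) = P.map A f x := by
  have := pcomp_cl P 0 x f
  rwa [P.tk_zero, P.map_id] at this

theorem zero_pcomp (f : A ⟶ B) (y : P.Pi B C) : pcomp P (P.cl 0 f) y = P.comap f C y := by
  obtain ⟨l, y, rfl⟩ := CoPt.cl_surj y
  have := pcomp_cl P l (P.cl l (P.pwMap l f)) y
  rwa [CoPt.map_cl, P.tk_nat, CoPt.tk, CoPt.cl_tr] at this

theorem pcomp_assoc (x : P.Pi A B) (y : P.Pi B C) (z : P.Pi C C') :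
    pcomp P (pcomp P x y) z = pcomp P x (pcomp P y z) := by
  obtain ⟨m, z, rfl⟩ := CoPt.cl_surj z
  obtain ⟨y, rfl⟩ := (P.bijective_map_tk m _ _).2 y
  rw [pcomp_cl, pcomp_map, pcomp_cl, pcomp_map]

theorem comap_pcomp (f : A ⟶ B) (y : P.Pi B C) (z : P.Pi C C') :
    pcomp P (P.comap f C y) z = P.comap f C' (pcomp P y z) := by
  rw [← zero_pcomp, pcomp_assoc, zero_pcomp]

theorem comap_tk_cl (k : ℕ) (x : P.pw k A ⟶ B) : P.comap (P.tk k A) B (P.cl k x) = P.cl 0 x := by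
  have := pcomp_cl P k (P.cl 0 (𝟙 _)) x
  rwa [CoPt.map_cl, CoPt.map_cl, Category.id_comp, Category.id_comp, zero_pcomp] at this

theorem comap_tk_injective (k : ℕ) (A B : K) : Function.Injective (P.comap (P.tk k A) B) :=
  fun x y e => by
    have h : ∀ x : P.Pi A B, pcomp P (P.cl k (𝟙 _)) (P.comap (P.tk k A) B x) = x := fun x => by
      rw [← zero_pcomp, ← pcomp_assoc, pcomp_zero, CoPt.map_cl, Category.id_comp, P.cl_tk,
        CoPt.unit, zero_pcomp, P.comap_id]
    rw [← h x, e, h]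

theorem pi_pcomp {K' : Type u'} [Category.{v'} K'] {P : CoPt K} {P' : CoPt K'} (Q : CoPtMap P P')
    (x : P.Pi A B) (y : P.Pi B C) :
    Q.pi A C (pcomp P x y) = pcomp P' (Q.pi A B x) (Q.pi B C y) := by
  obtain ⟨k, x, rfl⟩ := CoPt.cl_surj x
  have e : Q.Θ k A ≫ Q.G.map (P.tk k A) = P'.tk k _ :=
    (Q.Θ_tr (Nat.zero_le k) _).trans (Category.comp_id _)
  apply comap_tk_injective P' k
  rw [← e, P'.comap_comp, P'.comap_comp, ← Q.pi_comap, ← comap_pcomp P, comap_tk_cl, zero_pcomp,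
    Q.pi_comap, ← comap_pcomp P', ← Q.pi_comap (P.tk k A), comap_tk_cl, Q.pi_cl, zero_pcomp,
    Q.Θ_zero, Category.id_comp]

section add

variable [MonoidalCategory K] [SymmetricCategory K] [HasZeroMorphisms K] (D : StabObj K)
  [CoGrp D.S]

theorem add_pcomp (x y : D.coPt.Pi A B) (z : D.coPt.Pi B C) :
    pcomp _ (x + y) z = pcomp _ x z + pcomp _ y z := by
  obtain ⟨m, z, rfl⟩ := CoPt.cl_surj z
  obtain ⟨x, rfl⟩ := (D.coPt.bijective_map_tk m _ _).2 x
  obtain ⟨y, rfl⟩ := (D.coPt.bijective_map_tk m _ _).2 y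
  rw [← D.map_add, pcomp_cl, pcomp_cl, pcomp_cl, D.map_add]

theorem pcomp_add (x : D.coPt.Pi A B) (y z : D.coPt.Pi B C) :
    pcomp _ x (y + z) = pcomp _ x y + pcomp _ x z := by
  obtain ⟨k, x, rfl⟩ := CoPt.cl_surj x
  apply comap_tk_injective _ k
  rw [D.comap_add, ← comap_pcomp, ← comap_pcomp, ← comap_pcomp, comap_tk_cl, zero_pcomp,
    zero_pcomp, zero_pcomp, D.comap_add]

end add

end Vale.Agent.P257.K
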